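import Mathlib
import Vale.Agent.P313.BP.Canon

/-!
# Rounding with an offset (block C)

`up p o x` does not change when `x` is perturbed by at most `1 / (Th * D)`, except for at most two
offsets `o < D`.
-/

namespace Vale.Agent.P313.H126

open Finset Vale.Agent.P313.BP

variable {p : Par}

/-- `x` on the fine grid. -/
noncomputable def fine (p : Par) (x : ℝ) : ℕ := ⌊(p.D : ℝ) * (p.Th * x)⌋₊

/-- The offset `o` is unsafe for the number `x`. -/
def OBad (p : Par) (x : ℝ) (o : ℕ) : Prop :=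
  (fine p x + o) % p.D = 0 ∨ (fine p x + o + 1) % p.D = 0

lemma up_eq (hD : 0 < p.D) {x : ℝ} (hx : 0 ≤ x) (o : ℕ) :
    up p o x = (fine p x + o) / p.D + 1 := by
  unfold up fine
  congr 1
  have hD' : (p.D : ℝ) ≠ 0 := by exact_mod_cast hD.ne'
  have e : (p.Th : ℝ) * x + (o : ℝ) / p.D = ((p.D : ℝ) * (p.Th * x) + o) / p.D := by
    field_simp
  rw [e, Nat.floor_div_natCast]
  congr 1
  exact Nat.floor_add_natCast (by positivity) _

lemma fine_close {x x' : ℝ} (hx : 0 ≤ x) (hx' : 0 ≤ x')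
    (h : |x' - x| * (p.Th * p.D) ≤ 1) : fine p x' ≤ fine p x + 1 ∧ fine p x ≤ fine p x' + 1 := by
  have key : ∀ y y' : ℝ, 0 ≤ y → |y' - y| * (p.Th * p.D) ≤ 1 → fine p y' ≤ fine p y + 1 := by
    intro y y' hy h'
    unfold fine
    rw [← Nat.floor_add_one (by positivity)]
    apply Nat.floor_le_floor
    have h1 : (y' - y) * (p.Th * p.D) ≤ 1 :=
      le_trans (mul_le_mul_of_nonneg_right (le_abs_self _) (by positivity)) h'
    linarith
  exact ⟨key x x' hx h, key x' x hx' (by rwa [abs_sub_comm])⟩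

lemma div_succ_eq {m D : ℕ} (h : (m + 1) % D ≠ 0) : (m + 1) / D = m / D := by
  rw [Nat.succ_div, if_neg (fun hd => h (Nat.mod_eq_zero_of_dvd hd)), add_zero]

/-- **rounding lemma** -/
lemma up_stable (hD : 0 < p.D) {x x' : ℝ} (hx : 0 ≤ x) (hx' : 0 ≤ x')
    (h : |x' - x| * (p.Th * p.D) ≤ 1) {o : ℕ} (ho : ¬ OBad p x o) : up p o x' = up p o x := by
  rw [up_eq hD hx, up_eq hD hx']
  congr 1
  obtain ⟨h1, h2⟩ := fine_close hx hx' h
  unfold OBad at ho
  push Not at ho
  rcases Nat.lt_trichotomy (fine p x') (fine p x) with h3 | h3 | h3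
  · have h4 : fine p x = fine p x' + 1 := by omega
    have h5 : fine p x + o = (fine p x' + o) + 1 := by omega
    rw [h5] at ho ⊢
    exact (div_succ_eq ho.1).symm
  · rw [h3]
  · have h4 : fine p x' = fine p x + 1 := by omega
    have h5 : fine p x' + o = (fine p x + o) + 1 := by omega
    rw [h5]
    exact div_succ_eq ho.2

lemma card_mod_eq_zero {D : ℕ} (m : ℕ) :
    ((range D).filter fun o => (m + o) % D = 0).card ≤ 1 := by
  rw [Finset.card_le_one]
  intro a ha b hb
  rw [Finset.mem_filter, Finset.mem_range] at ha hb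
  have h : (m + a) ≡ (m + b) [MOD D] := by
    unfold Nat.ModEq
    rw [ha.2, hb.2]
  have h2 : a ≡ b [MOD D] := Nat.ModEq.add_left_cancel' m h
  exact Nat.ModEq.eq_of_lt_of_lt h2 ha.1 hb.1

open scoped Classical in
/-- at most two offsets are unsafe -/
lemma card_OBad (x : ℝ) : ((range p.D).filter fun o => OBad p x o).card ≤ 2 := by
  have h : ((range p.D).filter fun o => OBad p x o) ⊆
      ((range p.D).filter fun o => (fine p x + o) % p.D = 0) ∪
        ((range p.D).filter fun o => (fine p x + 1 + o) % p.D = 0) := by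
    intro o ho
    rw [Finset.mem_filter] at ho
    rw [Finset.mem_union, Finset.mem_filter, Finset.mem_filter]
    rcases ho with ⟨h1, h2 | h2⟩
    · exact Or.inl ⟨h1, h2⟩
    · refine Or.inr ⟨h1, ?_⟩
      rw [show fine p x + 1 + o = fine p x + o + 1 by ring]
      exact h2
  calc _ ≤ _ := Finset.card_le_card h
    _ ≤ _ := Finset.card_union_le _ _
    _ ≤ 1 + 1 := add_le_add (card_mod_eq_zero _) (card_mod_eq_zero _)

lemma lt_up (o : ℕ) (x : ℝ) : (p.Th : ℝ) * x < up p o x := by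
  unfold up
  push_cast
  have h1 : (p.Th : ℝ) * x ≤ (p.Th : ℝ) * x + (o : ℝ) / p.D := by
    have : (0 : ℝ) ≤ (o : ℝ) / p.D := by positivity
    linarith
  exact lt_of_le_of_lt h1 (Nat.lt_floor_add_one _)

lemma up_le {o : ℕ} (ho : o ≤ p.D) {x : ℝ} (hx : 0 ≤ x) : (up p o x : ℝ) ≤ p.Th * x + 2 := by
  unfold up
  push_cast
  have h1 : (o : ℝ) / p.D ≤ 1 := by
    apply div_le_one_of_le₀ (by exact_mod_cast ho) (by positivity)
  have h2 : (⌊(p.Th : ℝ) * x + (o : ℝ) / p.D⌋₊ : ℝ) ≤ (p.Th : ℝ) * x + (o : ℝ) / p.D :=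
    Nat.floor_le (by positivity)
  linarith

lemma one_le_up (o : ℕ) (x : ℝ) : 1 ≤ up p o x := Nat.succ_pos _

end Vale.Agent.P313.H126
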