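import Mathlib
import Vale.Agent.P313.H126.Round
import Vale.Agent.P313.H931.Sampler

/-!
# From good seeds of the sampler to canonical values (block C)
-/

namespace Vale.Agent.P313.H126

open Finset Vale.Agent.P313.BP
open scoped Classical

/-- If most estimates are close to the mean, most rounded estimates are canonical. -/
theorem most_up {p : Par} (hD : 0 < p.D) {n k o : ℕ} (hk : 2 * k ≤ n + 1) {e : ℕ → ℝ} {m del : ℝ}
    (he : ∀ j < n, 0 ≤ e j) (hm : 0 ≤ m) (hdel : del * (p.Th * p.D) ≤ 1) (hs : ¬ OBad p m o)
    (hgood : ((range n).filter fun j => del < |e j - m|).card < k) :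
    n < 2 * ((range n).filter fun j => up p o (e j) = up p o m).card := by
  have h1 : (range n).filter (fun j => ¬ (del < |e j - m|)) ⊆
      (range n).filter fun j => up p o (e j) = up p o m := by
    intro j hj
    rw [Finset.mem_filter] at hj ⊢
    refine ⟨hj.1, up_stable hD hm (he j (Finset.mem_range.1 hj.1)) ?_ hs⟩
    have h2 := hj.2
    push Not at h2
    exact le_trans (mul_le_mul_of_nonneg_right h2 (by positivity)) hdel
  have h2 := Finset.card_le_card h1
  have h3 := Finset.card_filter_add_card_filter_not (s := range n) (fun j => del < |e j - m|)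
  rw [Finset.card_range] at h3
  omega

/-- The integer form of a rounded quotient. -/
theorem up_ratio {p : Par} (hD : 0 < p.D) (o num dn : ℕ) (hdn : 0 < dn) :
    up p o ((num : ℝ) / dn) = (p.Th * num * p.D + o * dn) / (dn * p.D) + 1 := by
  unfold up
  congr 1
  have h1 : (p.Th : ℝ) * ((num : ℝ) / dn) + (o : ℝ) / p.D =
      ((p.Th * num * p.D + o * dn : ℕ) : ℝ) / ((dn * p.D : ℕ) : ℝ) := by
    have hD' : (p.D : ℝ) ≠ 0 := by exact_mod_cast hD.ne'
    have hdn' : (dn : ℝ) ≠ 0 := by exact_mod_cast hdn.ne'
    push_cast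
    field_simp
  rw [h1, Nat.floor_div_eq_div]

/-- Two independent sources of failure. -/
theorem card_pair_bad {O W : Type*} [Fintype O] [Fintype W] (A : O → Prop) (Bd : O → W → Prop)
    {x y : ℝ} (hA : ((univ.filter fun o => ¬ A o).card : ℝ) ≤ x * Fintype.card O)
    (hB : ∀ o, ((univ.filter fun w => Bd o w).card : ℝ) ≤ y * Fintype.card W) :
    ((univ.filter fun z : O × W => ¬ (A z.1 ∧ ¬ Bd z.1 z.2)).card : ℝ) ≤
      (x + y) * Fintype.card (O × W) := by
  have h1 : (univ.filter fun z : O × W => ¬ (A z.1 ∧ ¬ Bd z.1 z.2)) ⊆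
      ((univ.filter fun o => ¬ A o) ×ˢ (univ : Finset W)) ∪
        (univ.filter fun z : O × W => Bd z.1 z.2) := by
    intro z hz
    rw [Finset.mem_filter] at hz
    rw [Finset.mem_union, Finset.mem_product, Finset.mem_filter, Finset.mem_filter]
    by_cases h : A z.1
    · right
      refine ⟨Finset.mem_univ _, ?_⟩
      by_contra hb
      exact hz.2 ⟨h, hb⟩
    · exact Or.inl ⟨⟨Finset.mem_univ _, h⟩, Finset.mem_univ _⟩
  have h2 : (univ.filter fun z : O × W => Bd z.1 z.2).card =
      ∑ o : O, (univ.filter fun w => Bd o w).card := by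
    rw [Finset.card_filter, Fintype.sum_prod_type]
    refine Finset.sum_congr rfl fun o _ => ?_
    rw [Finset.card_filter]
  have h3 : ((univ.filter fun z : O × W => Bd z.1 z.2).card : ℝ) ≤
      Fintype.card O * (y * Fintype.card W) := by
    rw [h2]
    push_cast
    calc _ ≤ ∑ _o : O, y * Fintype.card W := Finset.sum_le_sum fun o _ => hB o
      _ = _ := by rw [Finset.sum_const, Finset.card_univ, nsmul_eq_mul]
  calc ((univ.filter fun z : O × W => ¬ (A z.1 ∧ ¬ Bd z.1 z.2)).card : ℝ)
      ≤ ((((univ.filter fun o => ¬ A o) ×ˢ (univ : Finset W)).card +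
          (univ.filter fun z : O × W => Bd z.1 z.2).card : ℕ) : ℝ) := by
        exact_mod_cast (Finset.card_le_card h1).trans (Finset.card_union_le _ _)
    _ ≤ x * Fintype.card O * Fintype.card W + Fintype.card O * (y * Fintype.card W) := by
        push_cast
        rw [Finset.card_product, Finset.card_univ]
        push_cast
        gcongr
    _ = _ := by
        rw [Fintype.card_prod]
        push_cast
        ring

end Vale.Agent.P313.H126
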