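import Mathlib
import Vale.Agent.P313.H126.Round

/-!
# Good offsets (block C)

The offsets of all stages are drawn one after the other; the numbers which are rounded with an
offset depend on the earlier offsets only.
-/

namespace Vale.Agent.P313.H126

open Finset Vale.Agent.P313.BP
open scoped Classical

/-- Union bound for dependent draws, one index. -/
theorem card_dep_one {m D : ℕ} (Bd : ℕ) (i : Fin m) (F : (Fin m → Fin D) → Fin D → Prop)
    (hloc : ∀ o o' : Fin m → Fin D, (∀ j < i, o j = o' j) → ∀ c, F o c ↔ F o' c)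
    (hcard : ∀ o, (univ.filter fun c => F o c).card ≤ Bd) :
    (univ.filter fun o : Fin m → Fin D => F o (o i)).card * D ≤ Bd * D ^ m := by
  have h1 : ((univ.filter fun o : Fin m → Fin D => F o (o i)) ×ˢ (univ : Finset (Fin D))).card ≤
      (univ.filter fun x : (Fin m → Fin D) × Fin D => F x.1 x.2).card := by
    apply Finset.card_le_card_of_injOn (fun x => (Function.update x.1 i x.2, x.1 i))
    · intro x hx
      rw [Finset.mem_coe, Finset.mem_product, Finset.mem_filter] at hx
      rw [Finset.mem_coe, Finset.mem_filter]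
      refine ⟨Finset.mem_univ _, ?_⟩
      refine (hloc x.1 _ (fun j hj => ?_) _).1 hx.1.2
      show x.1 j = Function.update x.1 i x.2 j
      rw [Function.update_of_ne hj.ne]
    · intro x _ y _ h
      rw [Prod.mk.injEq] at h
      have hd : x.2 = y.2 := by
        have := congrFun h.1 i
        simpa using this
      refine Prod.ext (funext fun j => ?_) hd
      by_cases hj : j = i
      · rw [hj]; exact h.2
      · have := congrFun h.1 j
        simpa [hj] using this
  rw [Finset.card_product, Finset.card_univ, Fintype.card_fin] at h1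
  refine h1.trans ?_
  have h2 : (univ.filter fun x : (Fin m → Fin D) × Fin D => F x.1 x.2).card =
      ∑ o : Fin m → Fin D, (univ.filter fun c => F o c).card := by
    rw [Finset.card_filter, Fintype.sum_prod_type]
    refine Finset.sum_congr rfl fun o _ => ?_
    rw [Finset.card_filter]
  rw [h2]
  calc _ ≤ ∑ _o : Fin m → Fin D, Bd := Finset.sum_le_sum fun o _ => hcard o
    _ = Bd * D ^ m := by
      rw [Finset.sum_const, Finset.card_univ, Fintype.card_fun, Fintype.card_fin,
        Fintype.card_fin, smul_eq_mul, mul_comm]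

/-- Union bound for dependent draws. -/
theorem card_dep {m D : ℕ} (Bd : ℕ) (F : Fin m → (Fin m → Fin D) → Fin D → Prop)
    (hloc : ∀ i, ∀ o o' : Fin m → Fin D, (∀ j < i, o j = o' j) → ∀ c, F i o c ↔ F i o' c)
    (hcard : ∀ i o, (univ.filter fun c => F i o c).card ≤ Bd) :
    (univ.filter fun o : Fin m → Fin D => ∃ i, F i o (o i)).card * D ≤ m * Bd * D ^ m := by
  have h1 : (univ.filter fun o : Fin m → Fin D => ∃ i, F i o (o i)) =
      (univ : Finset (Fin m)).biUnion fun i => univ.filter fun o : Fin m → Fin D => F i o (o i) := by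
    ext o
    simp
  calc _ ≤ (∑ i : Fin m, (univ.filter fun o : Fin m → Fin D => F i o (o i)).card) * D := by
        rw [h1]
        exact Nat.mul_le_mul_right _ Finset.card_biUnion_le
    _ = ∑ i : Fin m, (univ.filter fun o : Fin m → Fin D => F i o (o i)).card * D := by
        rw [Finset.sum_mul]
    _ ≤ ∑ _i : Fin m, Bd * D ^ m :=
        Finset.sum_le_sum fun i _ => card_dep_one Bd i _ (hloc i) (hcard i)
    _ = _ := by
        rw [Finset.sum_const, Finset.card_univ, Fintype.card_fin, smul_eq_mul, mul_assoc]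

variable {p : Par} {S : Sem} {cs : ℕ → Bool → ℕ}

/-- The canonical data depend on earlier offsets only. -/
lemma data_congr {o o' : ℕ → ℕ → ℕ} {s : ℕ} (h : ∀ s' < s, ∀ i < 3, o s' i = o' s' i) :
    data p S cs o s = data p S cs o' s := by
  induction s with
  | zero => rfl
  | succ s ih =>
    unfold data
    rw [ih (fun s' hs' => h s' (by omega)), h s (by omega) 0 (by omega), h s (by omega) 1 (by omega),
      h s (by omega) 2 (by omega)]

/-- Offsets as a function of stage and number. -/
def offs {m : ℕ} (o : Fin m → Fin p.D) (s i : ℕ) : ℕ :=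
  if h : 3 * s + i < m then (o ⟨3 * s + i, h⟩ : ℕ) else 0

/-- Stage `s` has only safe roundings. -/
structure SafeO (p : Par) (S : Sem) (d : SD) (o0 o1 o2 : ℕ) : Prop where
  k0 : ∀ a < p.r, ∀ v < p.n, ∀ x < p.n, ¬ OBad p (S.P d (fun _ => False) a v x) o0
  k1 : ∀ x < p.n, ¬ OBad p (S.loss d (Z1 p S d o0) x) o1
  k2 : ∀ a < p.r, ∀ v < p.n, ∀ x < p.n, ¬ OBad p (S.P d (Zs p S d o0 o1) a v x) o2

/-- All stages below `Sn` have only safe roundings. -/
def GoodO (p : Par) (S : Sem) (cs : ℕ → Bool → ℕ) (Sn : ℕ) (o : ℕ → ℕ → ℕ) : Prop :=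
  ∀ s < Sn, SafeO p S (data p S cs o s) (o s 0) (o s 1) (o s 2)

/-- The bad events of draw `i` at stage `s`. -/
def BadI (p : Par) (S : Sem) (d : SD) (o0 o1 i c : ℕ) : Prop :=
  if i = 0 then ∃ a < p.r, ∃ v < p.n, ∃ x < p.n, OBad p (S.P d (fun _ => False) a v x) c
  else if i = 1 then ∃ x < p.n, OBad p (S.loss d (Z1 p S d o0) x) c
  else ∃ a < p.r, ∃ v < p.n, ∃ x < p.n, OBad p (S.P d (Zs p S d o0 o1) a v x) c

lemma card_ex {D N M : ℕ} (R : ℕ → ℕ → Prop) (h : ∀ i < N, ((range D).filter (R i)).card ≤ M) :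
    ((range D).filter fun c => ∃ i < N, R i c).card ≤ N * M := by
  have h1 : ((range D).filter fun c => ∃ i < N, R i c) ⊆
      (range N).biUnion fun i => (range D).filter (R i) := by
    intro c hc
    rw [Finset.mem_filter] at hc
    obtain ⟨hc1, i, hi, hR⟩ := hc
    rw [Finset.mem_biUnion]
    exact ⟨i, Finset.mem_range.2 hi, Finset.mem_filter.2 ⟨hc1, hR⟩⟩
  refine (Finset.card_le_card h1).trans ?_
  calc _ ≤ ∑ i ∈ range N, ((range D).filter (R i)).card := Finset.card_biUnion_le
    _ ≤ ∑ _i ∈ range N, M := Finset.sum_le_sum fun i hi => h i (Finset.mem_range.1 hi)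
    _ = _ := by rw [Finset.sum_const, Finset.card_range, smul_eq_mul]

lemma card_BadI (hr : 1 ≤ p.r) (d : SD) (o0 o1 i : ℕ) :
    ((range p.D).filter fun c => BadI p S d o0 o1 i c).card ≤ p.r * (p.n * (p.n * 2)) := by
  have h3 : ∀ f : ℕ → ℕ → ℕ → ℝ, ((range p.D).filter fun c => ∃ a < p.r, ∃ v < p.n, ∃ x < p.n,
      OBad p (f a v x) c).card ≤ p.r * (p.n * (p.n * 2)) := by
    intro f
    have e1 : ∀ a v, ((range p.D).filter fun c => ∃ x < p.n, OBad p (f a v x) c).card ≤
        p.n * 2 := by
      intro a v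
      convert card_ex (D := p.D) (N := p.n) (M := 2)
        (fun x c => OBad p (f a v x) c) fun x _ => card_OBad _
    have e2 : ∀ a, ((range p.D).filter fun c => ∃ v < p.n, ∃ x < p.n, OBad p (f a v x) c).card ≤
        p.n * (p.n * 2) := by
      intro a
      convert card_ex (D := p.D) (N := p.n) (M := p.n * 2)
        (fun v c => ∃ x < p.n, OBad p (f a v x) c) fun v _ => by convert e1 a v
    convert card_ex (D := p.D) (N := p.r) (M := p.n * (p.n * 2))
      (fun a c => ∃ v < p.n, ∃ x < p.n, OBad p (f a v x) c) fun a _ => by convert e2 a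
  unfold BadI
  by_cases h0 : i = 0
  · simp only [h0, if_true]
    exact h3 _
  · by_cases h1 : i = 1
    · simp only [h1, if_true, one_ne_zero, if_false]
      have := card_ex (D := p.D) (N := p.n) (M := 2)
        (fun x c => OBad p (S.loss d (Z1 p S d o0) x) c) fun x _ => card_OBad _
      refine le_trans (le_of_eq (by congr)) (this.trans ?_)
      rcases Nat.eq_zero_or_pos p.n with hn | hn
      · rw [hn]; simp
      · nlinarith [Nat.mul_le_mul hr (Nat.mul_le_mul hn (le_refl (p.n * 2)))]
    · simp only [h0, h1, if_false]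
      exact h3 _

/-- **Counting of the bad offsets.** -/
theorem card_not_goodO (hr : 1 ≤ p.r) (S : Sem) (cs : ℕ → Bool → ℕ) (Sn : ℕ) :
    (Finset.card {o : Fin (3 * Sn) → Fin p.D | ¬ GoodO p S cs Sn (offs o)}) * p.D ≤
      3 * Sn * (p.r * (p.n * (p.n * 2))) * p.D ^ (3 * Sn) := by
  set F : Fin (3 * Sn) → (Fin (3 * Sn) → Fin p.D) → Fin p.D → Prop := fun i o c =>
    BadI p S (data p S cs (offs o) (i / 3)) (offs o (i / 3) 0) (offs o (i / 3) 1) (i % 3) c with hF
  have hoffs : ∀ (o o' : Fin (3 * Sn) → Fin p.D) (i : Fin (3 * Sn)), (∀ j < i, o j = o' j) →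
      ∀ s k, 3 * s + k < (i : ℕ) → offs o s k = offs o' s k := by
    intro o o' i h s k hk
    unfold offs
    have h1 : 3 * s + k < 3 * Sn := hk.trans i.2
    rw [dif_pos h1, dif_pos h1, h _ (by exact hk)]
  have h1 := card_dep (p.r * (p.n * (p.n * 2))) F
    (by
      intro i o o' h c
      have hd : data p S cs (offs o) (i / 3) = data p S cs (offs o') (i / 3) :=
        data_congr fun s' hs' k hk => hoffs o o' i h s' k (by omega)
      simp only [hF]
      unfold BadI
      by_cases c0 : (i : ℕ) % 3 = 0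
      · simp only [c0, if_true]
        rw [hd]
      · have e0 : offs o (i / 3) 0 = offs o' (i / 3) 0 := hoffs o o' i h _ _ (by omega)
        by_cases c1 : (i : ℕ) % 3 = 1
        · simp only [c1, if_true, one_ne_zero, if_false]
          rw [hd, e0]
        · have e1 : offs o (i / 3) 1 = offs o' (i / 3) 1 := hoffs o o' i h _ _ (by omega)
          simp only [c0, c1, if_false]
          rw [hd, e0, e1])
    (by
      intro i o
      refine le_trans ?_ (card_BadI (S := S) hr (data p S cs (offs o) (i / 3))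
        (offs o (i / 3) 0) (offs o (i / 3) 1) (i % 3))
      apply Finset.card_le_card_of_injOn (fun c : Fin p.D => (c : ℕ))
      · intro c hc
        rw [Finset.mem_coe, Finset.mem_filter] at hc
        rw [Finset.mem_coe, Finset.mem_filter]
        exact ⟨Finset.mem_range.2 c.2, hc.2⟩
      · exact fun a _ b _ h => Fin.ext h)
  refine le_trans (Nat.mul_le_mul_right _ (Finset.card_le_card ?_)) h1
  intro o ho
  rw [Finset.mem_filter] at ho ⊢
  refine ⟨Finset.mem_univ _, ?_⟩
  by_contra hcon
  push Not at hcon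
  apply ho.2
  intro s hs
  have hget : ∀ k (hk : k < 3), F ⟨3 * s + k, by omega⟩ o (o ⟨3 * s + k, by omega⟩) =
      BadI p S (data p S cs (offs o) s) (offs o s 0) (offs o s 1) k (offs o s k) := by
    intro k hk
    have e1 : (3 * s + k) / 3 = s := by omega
    have e2 : (3 * s + k) % 3 = k := by omega
    have e3 : ((o ⟨3 * s + k, by omega⟩ : Fin p.D) : ℕ) = offs o s k := by
      unfold offs
      rw [dif_pos (show 3 * s + k < 3 * Sn by omega)]
    simp only [hF, e1, e2, e3]
  constructor
  · intro a ha v hv x hx hb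
    apply hcon ⟨3 * s + 0, by omega⟩
    rw [hget 0 (by omega)]
    unfold BadI
    rw [if_pos rfl]
    exact ⟨a, ha, v, hv, x, hx, hb⟩
  · intro x hx hb
    apply hcon ⟨3 * s + 1, by omega⟩
    rw [hget 1 (by omega)]
    unfold BadI
    rw [if_neg one_ne_zero, if_pos rfl]
    exact ⟨x, hx, hb⟩
  · intro a ha v hv x hx hb
    apply hcon ⟨3 * s + 2, by omega⟩
    rw [hget 2 (by omega)]
    unfold BadI
    rw [if_neg (by norm_num), if_neg (by norm_num)]
    exact ⟨a, ha, v, hv, x, hx, hb⟩

end Vale.Agent.P313.H126
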