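import Mathlib
import Vale.Agent.P313.H126.CountW

/-!
# Most seeds are good (block C)

A seed is one number `sd < D ^ (3 S) * Q ^ (2 DC + 2 lw)`: the offsets are the digits of
`sd % D ^ (3 S)`, the seed of the sampler is given by the digits of `sd / D ^ (3 S)`.
-/

namespace Vale.Agent.P313.H126

open Finset Vale.Agent.P313.BP P313.H931
open scoped Classical

/-- offsets from a number -/
def offN (p : Par2) (x s i : ℕ) : ℕ := x / p.D ^ (3 * s + i) % p.D

/-- offsets of a seed -/
def oSd (p : Par2) (sd : ℕ) : ℕ → ℕ → ℕ := offN p (sd % p.D ^ (3 * p.S))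

/-- digits of the sampler part of a seed -/
def wSd (p : Par2) (sd m : ℕ) : ℕ := sd / p.D ^ (3 * p.S) / p.Q ^ m % p.Q

/-- number of seeds -/
def nSd (p : Par2) : ℕ := p.D ^ (3 * p.S) * p.Q ^ (2 * p.DC + 2 * p.lw)

lemma oSd_lt {p : Par2} (hD : 0 < p.D) (sd s i : ℕ) : oSd p sd s i < p.D := Nat.mod_lt _ hD

lemma wSd_lt {p : Par2} (hQ : 0 < p.Q) (sd m : ℕ) : wSd p sd m < p.Q := Nat.mod_lt _ hQ

variable {p : Par2} {S : Sem} {T : TSem}

/-- the bad numbers of offsets -/
theorem card_bad_o (hD : 0 < p.D) (hr : 1 ≤ p.r) (S : Sem) (cs : ℕ → Bool → ℕ) :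
    (((range (p.D ^ (3 * p.S))).filter fun x => ¬ GoodO p.toPar S cs p.S (offN p x)).card) * p.D ≤
      3 * p.S * (p.r * (p.n * (p.n * 2))) * p.D ^ (3 * p.S) := by
  refine le_trans (Nat.mul_le_mul_right _ ?_) (card_not_goodO (p := p.toPar) hr S cs p.S)
  apply Finset.card_le_card_of_injOn
    (fun x => if h : x < p.D ^ (3 * p.S) then finFunctionFinEquiv.symm ⟨x, h⟩ else fun _ => ⟨0, hD⟩)
  · intro x hx
    rw [Finset.mem_coe, Finset.mem_filter, Finset.mem_range] at hx
    rw [Finset.mem_coe, Finset.mem_filter]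
    refine ⟨Finset.mem_univ _, ?_⟩
    have e : offs (p := p.toPar) (if h : x < p.D ^ (3 * p.S) then
        finFunctionFinEquiv.symm ⟨x, h⟩ else fun _ => ⟨0, hD⟩) = offN p x := by
      funext s i
      unfold offs offN
      rw [dif_pos hx.1]
      split_ifs with h
      · rw [finFunctionFinEquiv_symm_apply_val]
      · have h1 : x < p.D ^ (3 * s + i) :=
          lt_of_lt_of_le hx.1 (Nat.pow_le_pow_right hD (by omega))
        rw [Nat.div_eq_of_lt h1, Nat.zero_mod]
    rw [e]
    exact hx.2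
  · intro x hx y hy hxy
    rw [Finset.mem_coe, Finset.mem_filter, Finset.mem_range] at hx hy
    simp only [hx.1, hy.1, dif_pos] at hxy
    exact congrArg Fin.val (finFunctionFinEquiv.symm.injective hxy)

/-- a seed is good: all majorities are canonical -/
def GoodSd (p : Par2) (S : Sem) (T : TSem) (cs : ℕ → Bool → ℕ) (sd : ℕ) : Prop :=
  GoodW p S T cs (oSd p sd) (wSd p sd)

/-- **most seeds are good** -/
theorem card_bad_sd [NeZero p.q] [Fact p.Q.Prime] (hr : 0 < p.r) {VD : SD → Prop} {Bf : ℕ}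
    (hm : MeanOK p S T VD Bf) (hD : 0 < p.D) {k : ℕ} (hk : 2 * k ≤ p.lw + 2)
    {cs : ℕ → Bool → ℕ}
    (hVD : ∀ o : ℕ → ℕ → ℕ, (∀ s i, o s i < p.D) → ∀ s < p.S, VD (data p.toPar S cs o s))
    {eps : ℝ} (heps : 0 < eps)
    (hdel : (eps + Bf * ((1 + (p.q : ℝ) ^ p.c0 / p.Q) ^ p.DC - 1)) * (p.Th * p.D) ≤ 1)
    (hc0 : 0 < p.c0) (hL : p.L ≤ p.c0 * p.DC) (hDQ : 2 * p.DC ≤ p.Q)
    (hN1 : 8 * (3 * p.S * (p.r * (p.n * (p.n * 2)))) ≤ p.D)
    (hN2 : 8 * ((3 * p.S * (p.r * (p.n * p.n)) : ℕ) * (p.q : ℝ) ^ p.L *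
        (2 ^ (p.lw + 1) * ((Bf : ℝ) ^ 2 / (eps ^ 2 * p.Q) + ((2 * p.DC : ℕ) : ℝ) / p.Q) ^ k)) ≤ 1) :
    4 * ((range (nSd p)).filter fun sd => ¬ GoodSd p S T cs sd).card ≤ nSd p := by
  have hQ : 0 < p.Q := (Fact.out : p.Q.Prime).pos
  set A := p.D ^ (3 * p.S) with hA
  set M := p.Q ^ (2 * p.DC + 2 * p.lw) with hM
  have hApos : 0 < A := Nat.pow_pos hD
  have hMpos : 0 < M := Nat.pow_pos hQ
  -- offsets
  have h1 : 8 * ((range A).filter fun x => ¬ GoodO p.toPar S cs p.S (offN p x)).card ≤ A := by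
    have h2 := card_bad_o (p := p) hD hr S cs
    have h3 : 8 * ((range A).filter fun x => ¬ GoodO p.toPar S cs p.S (offN p x)).card * p.D ≤
        p.D * A := by
      calc _ = 8 * (((range A).filter fun x => ¬ GoodO p.toPar S cs p.S (offN p x)).card * p.D) := by
            ring
        _ ≤ 8 * (3 * p.S * (p.r * (p.n * (p.n * 2))) * A) := Nat.mul_le_mul_left _ h2
        _ = 8 * (3 * p.S * (p.r * (p.n * (p.n * 2)))) * A := by ring
        _ ≤ _ := Nat.mul_le_mul_right _ hN1
    rw [mul_comm p.D A] at h3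
    exact Nat.le_of_mul_le_mul_right h3 hD
  -- the sampler, for fixed good offsets
  have h4 : ∀ x, GoodO p.toPar S cs p.S (offN p x) →
      8 * ((range M).filter fun ω =>
        ¬ GoodW p S T cs (offN p x) (fun m => ω / p.Q ^ m % p.Q)).card ≤ M := by
    intro x hx
    have h5 := card_bad_w hr hm hD hk (hVD (offN p x) fun s i => Nat.mod_lt _ hD) hx heps hdel hc0
      hL hDQ
    have h6 : (8 : ℝ) * ((range M).filter fun ω =>
        ¬ GoodW p S T cs (offN p x) (fun m => ω / p.Q ^ m % p.Q)).card ≤ M := by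
      have hMr : (M : ℝ) = (p.Q : ℝ) ^ (2 * p.DC + 2 * p.lw) := by rw [hM]; push_cast; ring
      calc _ ≤ 8 * ((3 * p.S * (p.r * (p.n * p.n)) : ℕ) * (p.q : ℝ) ^ p.L *
            (2 ^ (p.lw + 1) * ((Bf : ℝ) ^ 2 / (eps ^ 2 * p.Q) + ((2 * p.DC : ℕ) : ℝ) / p.Q) ^ k) *
            (p.Q : ℝ) ^ (2 * p.DC + 2 * p.lw)) := mul_le_mul_of_nonneg_left h5 (by norm_num)
        _ = 8 * ((3 * p.S * (p.r * (p.n * p.n)) : ℕ) * (p.q : ℝ) ^ p.L *
            (2 ^ (p.lw + 1) * ((Bf : ℝ) ^ 2 / (eps ^ 2 * p.Q) + ((2 * p.DC : ℕ) : ℝ) / p.Q) ^ k)) *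
            M := by rw [hMr]; ring
        _ ≤ 1 * M := mul_le_mul_of_nonneg_right hN2 (by positivity)
        _ = M := one_mul _
    exact_mod_cast h6
  -- pairs
  have h7 : ((range (nSd p)).filter fun sd => ¬ GoodSd p S T cs sd).card ≤
      (((range A).filter fun x => ¬ GoodO p.toPar S cs p.S (offN p x)) ×ˢ (range M)).card +
      ((range A).sum fun x => if GoodO p.toPar S cs p.S (offN p x) then
        ((range M).filter fun ω => ¬ GoodW p S T cs (offN p x)
          (fun m => ω / p.Q ^ m % p.Q)).card else 0) := by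
    have h8 : ((range (nSd p)).filter fun sd => ¬ GoodSd p S T cs sd).card ≤
        ((((range A).filter fun x => ¬ GoodO p.toPar S cs p.S (offN p x)) ×ˢ (range M)) ∪
          ((range A).biUnion fun x => if GoodO p.toPar S cs p.S (offN p x) then
            ((range M).filter fun ω => ¬ GoodW p S T cs (offN p x)
              (fun m => ω / p.Q ^ m % p.Q)).image (fun ω => (x, ω)) else ∅)).card := by
      apply Finset.card_le_card_of_injOn (fun sd => (sd % A, sd / A))
      · intro sd hsd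
        rw [Finset.mem_coe, Finset.mem_filter, Finset.mem_range] at hsd
        have e1 : sd % A < A := Nat.mod_lt _ hApos
        have e2 : sd / A < M := by
          rw [Nat.div_lt_iff_lt_mul hApos, mul_comm]
          exact hsd.1
        rw [Finset.mem_coe, Finset.mem_union, Finset.mem_product, Finset.mem_filter,
          Finset.mem_biUnion]
        by_cases hg : GoodO p.toPar S cs p.S (offN p (sd % A))
        · right
          refine ⟨sd % A, Finset.mem_range.2 e1, ?_⟩
          rw [if_pos hg, Finset.mem_image]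
          refine ⟨sd / A, ?_, rfl⟩
          rw [Finset.mem_filter]
          exact ⟨Finset.mem_range.2 e2, hsd.2⟩
        · exact Or.inl ⟨⟨Finset.mem_range.2 e1, hg⟩, Finset.mem_range.2 e2⟩
      · intro x _ y _ hxy
        rw [Prod.mk.injEq] at hxy
        rw [← Nat.div_add_mod x A, ← Nat.div_add_mod y A, hxy.1, hxy.2]
    refine h8.trans ((Finset.card_union_le _ _).trans ?_)
    refine Nat.add_le_add_left (Finset.card_biUnion_le.trans (Finset.sum_le_sum fun x _ => ?_)) _
    split_ifs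
    · exact Finset.card_image_le
    · simp
  have h9 : 8 * ((range A).sum fun x => if GoodO p.toPar S cs p.S (offN p x) then
        ((range M).filter fun ω => ¬ GoodW p S T cs (offN p x)
          (fun m => ω / p.Q ^ m % p.Q)).card else 0) ≤ A * M := by
    rw [Finset.mul_sum]
    calc _ ≤ ∑ _x ∈ range A, M := by
          refine Finset.sum_le_sum fun x _ => ?_
          split_ifs with hg
          · exact h4 x hg
          · simp
      _ = _ := by rw [Finset.sum_const, Finset.card_range, smul_eq_mul]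
  have h10 : 8 * (((range A).filter fun x => ¬ GoodO p.toPar S cs p.S (offN p x)) ×ˢ
      (range M)).card ≤ A * M := by
    rw [Finset.card_product, Finset.card_range, ← mul_assoc]
    exact Nat.mul_le_mul_right _ h1
  have hN : nSd p = A * M := rfl
  omega

end Vale.Agent.P313.H126
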